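import Vale.Agent.P166.Limit

/-!
The pressure of an orthogonally invariant Ising spin glass is self-averaging, and asymptotically
depends only on the inverse temperature and the limiting spectral law.
-/

open MeasureTheory Filter Topology BoundedContinuousFunction Vale.Agent.P166

namespace Vale.Agent.Results.P166.Universality

theorem result (β : ℝ) (hβ : 0 ≤ β) (μ : Measure ℝ) [IsProbabilityMeasure μ]
    (hμ : IsCompact μ.support) :
    ∃ c : ℕ → ℝ,
      (∀ ev : ∀ N : ℕ, Fin N → ℝ,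
        (∀ f : ℝ →ᵇ ℝ,
          Tendsto (fun N => (∑ i, f (ev N i)) / (N : ℝ)) atTop (𝓝 (∫ x, f x ∂μ))) →
        Tendsto (fun N => ⨆ i, ev N i) atTop (𝓝 (sSup μ.support)) →
        Tendsto (fun N => ⨅ i, ev N i) atTop (𝓝 (sInf μ.support)) →
        Tendsto (fun N => ∫ U, |pr β (ev N) U - c N| ∂(haarP (OG N))) atTop (𝓝 0)) :=
  let ⟨c, hc⟩ := exists_center hβ hμ
  ⟨c, fun ev h1 h2 h3 => hc ev ⟨h1, h2, h3⟩⟩

end Vale.Agent.Results.P166.Universality
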